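import Vale.Agent.P269.G1.BSpec

/-!
# [DB5] topological recursion in genus one at a general point of the big phase space
-/

namespace Vale.Agent.P269.G1.H901

open Finset.HasAntidiagonal (antidiagonal)
open Vale.Agent.P269.CI Vale.Agent.P269.G1

variable {X : CompleteIntersection} {n : ℕ} (E : Fam X n) {F : ℕ → ℕ → List (Ins X) → ℂ}

theorem sr_congr {A B : ℕ → List (Ins X) → ℂ}
    (h : ∀ d (L : List (Fin n)), A d (L.map E.ins) = B d (L.map E.ins)) : sr E A = sr E B := by
  unfold sr
  congr 1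
  funext L
  ext d
  simpa using h d L

theorem sr_add (A B : ℕ → List (Ins X) → ℂ) :
    sr E (fun d L => A d L + B d L) = sr E A + sr E B := by
  unfold sr
  rw [← toSer_add]
  congr 1

theorem sr_zero : sr E (fun _ _ => 0) = 0 := by
  funext α
  change ((∏ i, (α i).factorial : ℕ) : ℚ)⁻¹ • (PowerSeries.mk fun _ => (0 : ℂ)) = 0
  have : (PowerSeries.mk fun _ => (0 : ℂ)) = 0 := by
    ext; simp
  rw [this, smul_zero]

theorem smul_RB (c : ℂ) (f : RB n) : c • f = cb n c * f := by
  ext m k
  rw [cb, MvPowerSeries.coeff_C_mul, PowerSeries.coeff_C_mul]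
  rfl

theorem sr_smul (c : ℂ) (A : ℕ → List (Ins X) → ℂ) :
    sr E (fun d L => c * A d L) = c • sr E A := by
  funext α
  change ((∏ i, (α i).factorial : ℕ) : ℚ)⁻¹ • (PowerSeries.mk fun d => c * A d _) =
    c • (((∏ i, (α i).factorial : ℕ) : ℚ)⁻¹ • (PowerSeries.mk fun d => A d _))
  rw [smul_comm]
  congr 1

theorem sr_sum {σ : Type*} (s : Finset σ) (A : σ → ℕ → List (Ins X) → ℂ) :
    sr E (fun d L => ∑ x ∈ s, A x d L) = ∑ x ∈ s, sr E (A x) := by
  classical
  induction s using Finset.induction_on with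
  | empty => simpa using sr_zero E
  | insert a s ha ih =>
    rw [Finset.sum_insert ha, ← ih, ← sr_add]
    exact sr_congr E fun d L => Finset.sum_insert ha

theorem par_ins (i : Fin n) : par X (E.ins i).1 = false := rfl

theorem isAmb_map (L : List (Fin n)) : ∀ x ∈ L.map E.ins, IsAmb X x := by
  intro x hx
  obtain ⟨j, _, rfl⟩ := List.mem_map.1 hx
  exact ⟨(E.e j).1, rfl⟩

theorem sr_swap (hF : IsGW X F) (g : ℕ) (P Q : List (Ins X)) (x y : Ins X)
    (h : par X x.1 = false ∨ par X y.1 = false) :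
    sr E (cor F g (P ++ x :: y :: Q)) = sr E (cor F g (P ++ y :: x :: Q)) := by
  refine sr_congr E fun d L => ?_
  have h1 := hF.symm g d P (Q ++ L.map E.ins) x y
  have h2 : sgn (par X x.1) (par X y.1) = 1 := by
    rcases h with h | h <;> simp [sgn, h]
  rw [h2, one_mul] at h1
  simpa [cor] using h1

/-- topological recursion in genus zero -/
theorem sr_trr (hF : IsGW X F) (a : Ix X) (m : ℕ) (x y : Ins X) :
    sr E (cor F 0 [(a, m + 1), x, y]) = ∑ α, ∑ β, pairingInv X α β •
      (sr E (cor F 0 [(β, 0), x, y]) * sr E (cor F 0 [(a, m), (α, 0)])) := by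
  have h1 : ∀ α β, pairingInv X α β •
      (sr E (cor F 0 [(β, 0), x, y]) * sr E (cor F 0 [(a, m), (α, 0)])) =
      sr E (fun d L => pairingInv X α β *
        mulS (cor F 0 [(β, 0), x, y]) (cor F 0 [(a, m), (α, 0)]) d L) := by
    intro α β
    rw [← sr_mulS E _ _ (symF_cor E hF 0 _) (symF_cor E hF 0 _), sr_smul]
  simp only [h1]
  simp only [← sr_sum]
  refine sr_congr E fun d L => ?_
  exact hF.trr d a m x y (L.map E.ins)

/-- a single primitive insertion gives zero -/
theorem sr_prim (h1 : IsGenusOne F) (g : ℕ) (v : X.Prim) (m : ℕ) (P : List (Ins X))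
    (hP : ∀ x ∈ P, IsAmb X x) : sr E (cor F g ((Sum.inr v, m) :: P)) = 0 := by
  rw [← sr_zero E]
  refine sr_congr E fun d L => ?_
  refine h1.mono1 g d v m (P ++ L.map E.ins) ?_
  intro x hx
  rcases List.mem_append.1 hx with h | h
  · exact hP x h
  · exact isAmb_map E L x h

theorem SB_succ (h1 : IsGenusOne F) (m : ℕ) (b c : Fin (X.dim + 1)) :
    (SB E h1 (m + 1)).1 c b = ∑ a : Fin (X.dim + 1),
      pairingInv X (Sum.inl a) (Sum.inl c) • VB E F (Sum.inl b, m) (Sum.inl a, 0) := rfl

theorem SB_zero (h1 : IsGenusOne F) (b c : Fin (X.dim + 1)) :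
    (SB E h1 0).1 c b = if c = b then 1 else 0 := Matrix.one_apply

/-- three-point functions with one descendant -/
theorem cor_three_pt (hF : IsGW X F) (h1 : IsGenusOne F) (b : Fin (X.dim + 1)) (m : ℕ)
    (u v : Ins X) : sr E (cor F 0 [(Sum.inl b, m), u, v]) = ∑ i : Fin (X.dim + 1),
      (SB E h1 m).1 i b * sr E (cor F 0 [hpow X i, u, v]) := by
  cases m with
  | zero =>
    rw [Finset.sum_eq_single b]
    · rw [SB_zero, if_pos rfl, one_mul]
      rfl
    · intro j _ hj
      rw [SB_zero, if_neg hj, zero_mul]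
    · simp
  | succ m =>
    rw [sr_trr E hF (Sum.inl b) m u v, Fintype.sum_sum_type]
    have h2 : ∑ w : X.Prim, ∑ β, pairingInv X (Sum.inr w) β •
        (sr E (cor F 0 [(β, 0), u, v]) * sr E (cor F 0 [(Sum.inl b, m), (Sum.inr w, 0)])) = 0 := by
      refine Finset.sum_eq_zero fun w _ => Finset.sum_eq_zero fun β _ => ?_
      have e1 := sr_swap E hF 0 [] [] (Sum.inl b, m) (Sum.inr w, 0) (Or.inl rfl)
      simp only [List.nil_append] at e1
      rw [e1, sr_prim E h1 0 w 0 [(Sum.inl b, m)] (by simp [IsAmb]), mul_zero, smul_zero]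
    rw [h2, add_zero]
    have h3 : ∀ c : Fin (X.dim + 1), ∑ β, pairingInv X (Sum.inl c) β •
        (sr E (cor F 0 [(β, 0), u, v]) * sr E (cor F 0 [(Sum.inl b, m), (Sum.inl c, 0)])) =
        ∑ i : Fin (X.dim + 1), (pairingInv X (Sum.inl c) (Sum.inl i) •
          VB E F (Sum.inl b, m) (Sum.inl c, 0)) * sr E (cor F 0 [hpow X i, u, v]) := by
      intro c
      rw [Fintype.sum_sum_type]
      have h4 : ∑ w : X.Prim, pairingInv X (Sum.inl c) (Sum.inr w) •
        (sr E (cor F 0 [(Sum.inr w, 0), u, v]) *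
          sr E (cor F 0 [(Sum.inl b, m), (Sum.inl c, 0)])) = 0 := by
        refine Finset.sum_eq_zero fun w _ => ?_
        have : pairingInv X (Sum.inl c) (Sum.inr w) = 0 := rfl
        rw [this, zero_smul]
      rw [h4, add_zero]
      refine Finset.sum_congr rfl fun i _ => ?_
      rw [smul_mul_assoc, mul_comm (VB E F (Sum.inl b, m) (Sum.inl c, 0))]
      rfl
    rw [Finset.sum_congr rfl fun c _ => h3 c, Finset.sum_comm]
    refine Finset.sum_congr rfl fun i _ => ?_
    rw [SB_succ, Finset.sum_mul]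

theorem form_inv_mul (X : CompleteIntersection) :
    (Matrix.of X.form)⁻¹ * Matrix.of X.form = 1 :=
  Matrix.nonsing_inv_mul _ (isUnit_iff_ne_zero.2 X.form_nondeg)

theorem sum_form : ∑ v : X.Prim, ∑ w : X.Prim,
    pairingInv X (Sum.inr v) (Sum.inr w) * X.form v w =
      (-1) ^ X.dim * (Fintype.card X.Prim : ℂ) := by
  have h5 : ∀ v, ∑ w, (Matrix.of X.form)⁻¹ v w * X.form w v = 1 := by
    intro v
    have := congrFun (congrFun (form_inv_mul X) v) v
    rw [Matrix.mul_apply, Matrix.one_apply, if_pos rfl] at this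
    exact this
  have h6 : ∀ v : X.Prim, ∑ w : X.Prim, pairingInv X (Sum.inr v) (Sum.inr w) * X.form v w =
      (-1) ^ X.dim := by
    intro v
    have h7 : ∀ w, pairingInv X (Sum.inr v) (Sum.inr w) * X.form v w =
        (-1) ^ X.dim * ((Matrix.of X.form)⁻¹ v w * X.form w v) := by
      intro w
      rw [X.form_symm v w]
      change (Matrix.of X.form)⁻¹ v w * _ = _
      ring
    rw [Finset.sum_congr rfl fun w _ => h7 w, ← Finset.mul_sum, h5, mul_one]
  rw [Finset.sum_congr rfl fun v _ => h6 v, Finset.sum_const, Finset.card_univ, nsmul_eq_mul,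
    mul_comm]

/-- moving an even insertion through a list -/
theorem move_even (hF : IsGW X F) (g d : ℕ) (x : Ins X) (hx : par X x.1 = false)
    (P : List (Ins X)) : ∀ Q L : List (Ins X), F g d (Q ++ (P ++ x :: L)) =
      F g d (Q ++ (x :: (P ++ L))) := by
  induction P with
  | nil => intro Q L; rfl
  | cons p P ih =>
    intro Q L
    have h1 := ih (Q ++ [p]) L
    simp only [List.append_assoc, List.nil_append, List.cons_append] at h1 ⊢
    rw [h1, hF.symm g d Q (P ++ L) p x, hx]
    simp [sgn]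

/-- three-point functions with two primitive classes -/
theorem cor_prim_two (hF : IsGW X F) (h1 : IsGenusOne F) (v w : X.Prim) (k : Fin (X.dim + 1)) :
    sr E (cor F 0 [hpow X k, (Sum.inr v, 0), (Sum.inr w, 0)]) = X.form v w •
      sr E (fun d L => Classical.choose h1.mono2 0 0 d (hpow X k :: L)) := by
  rw [← sr_smul]
  refine sr_congr E fun d L => ?_
  have e1 := move_even hF 0 d (hpow X k) rfl [(Sum.inr v, 0), (Sum.inr w, 0)] []
    (L.map E.ins)
  have e2 := Classical.choose_spec h1.mono2 d v w 0 0 (hpow X k :: L.map E.ins) (by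
    intro x hx
    rcases List.mem_cons.1 hx with h | h
    · exact ⟨k, by rw [h]; rfl⟩
    · exact isAmb_map E L x h)
  exact e1.symm.trans e2

/-- the supertrace of quantum multiplication -/
theorem strB_CB (hF : IsGW X F) (h1 : IsGenusOne F) (x : Fin (X.dim + 1) → RB n) :
    strB X n (CB E h1 x) = ∑ i, x i * ∑ α, ∑ β, pairingInv X α β •
      sr E (cor F 0 [hpow X i, (α, 0), (β, 0)]) := by
  have hT : ∀ i : Fin (X.dim + 1), (∑ α, ∑ β, pairingInv X α β •
      sr E (cor F 0 [hpow X i, (α, 0), (β, 0)])) =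
      (∑ k : Fin (X.dim + 1), ∑ a : Fin (X.dim + 1),
        pairingInv X (Sum.inl a) (Sum.inl k) • sr E (cor F 0 [hpow X i, hpow X k, hpow X a])) +
        cb n ((-1) ^ X.dim) * ∑ _v : X.Prim,
          sr E (fun d L => Classical.choose h1.mono2 0 0 d (hpow X i :: L)) := by
    intro i
    rw [Fintype.sum_sum_type]
    congr 1
    · have h4 : ∀ c : Fin (X.dim + 1), (∑ β, pairingInv X (Sum.inl c) β •
          sr E (cor F 0 [hpow X i, (Sum.inl c, 0), (β, 0)])) =
          ∑ k : Fin (X.dim + 1), pairingInv X (Sum.inl c) (Sum.inl k) •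
          sr E (cor F 0 [hpow X i, (Sum.inl c, 0), (Sum.inl k, 0)]) := by
        intro c
        rw [Fintype.sum_sum_type]
        have h5 : ∑ w : X.Prim, pairingInv X (Sum.inl c) (Sum.inr w) •
          sr E (cor F 0 [hpow X i, (Sum.inl c, 0), (Sum.inr w, 0)]) = 0 := by
          refine Finset.sum_eq_zero fun w _ => ?_
          have : pairingInv X (Sum.inl c) (Sum.inr w) = 0 := rfl
          rw [this, zero_smul]
        rw [h5, add_zero]
      rw [Finset.sum_congr rfl fun c _ => h4 c, Finset.sum_comm]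
      refine Finset.sum_congr rfl fun k _ => Finset.sum_congr rfl fun l _ => ?_
      congr 1
      exact sr_swap E hF 0 [hpow X i] [] (Sum.inl l, 0) (Sum.inl k, 0) (Or.inl rfl)
    · have h3 : ∀ v : X.Prim, (∑ β, pairingInv X (Sum.inr v) β •
          sr E (cor F 0 [hpow X i, (Sum.inr v, 0), (β, 0)])) =
          (∑ w : X.Prim, pairingInv X (Sum.inr v) (Sum.inr w) * X.form v w) •
            sr E (fun d L => Classical.choose h1.mono2 0 0 d (hpow X i :: L)) := by
        intro v
        rw [Fintype.sum_sum_type]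
        have h4 : ∑ c : Fin (X.dim + 1), pairingInv X (Sum.inr v) (Sum.inl c) •
            sr E (cor F 0 [hpow X i, (Sum.inr v, 0), (Sum.inl c, 0)]) = 0 := by
          refine Finset.sum_eq_zero fun c _ => ?_
          have : pairingInv X (Sum.inr v) (Sum.inl c) = 0 := rfl
          rw [this, zero_smul]
        rw [h4, zero_add, Finset.sum_smul]
        refine Finset.sum_congr rfl fun w _ => ?_
        rw [mul_smul]
        congr 1
        exact cor_prim_two E hF h1 v w i
      rw [Finset.sum_congr rfl fun v _ => h3 v, ← Finset.sum_smul, sum_form, Finset.sum_const,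
        Finset.card_univ, smul_RB, nsmul_eq_mul]
      have h5 : cb n ((-1) ^ X.dim * (Fintype.card X.Prim : ℂ)) =
          cb n ((-1) ^ X.dim) * (Fintype.card X.Prim : RB n) := by
        unfold cb
        rw [map_mul, map_mul, map_natCast, map_natCast]
      rw [h5, mul_assoc]
  simp only [hT]
  change Matrix.trace (Matrix.of fun c b => ∑ j, x j * ∑ a : Fin (X.dim + 1),
      pairingInv X (Sum.inl a) (Sum.inl c) • sr E (cor F 0 [hpow X j, hpow X b, hpow X a])) +
    cb n ((-1) ^ X.dim) * ∑ _v : X.Prim, ∑ j, x j *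
      sr E (fun d L => Classical.choose h1.mono2 0 0 d (hpow X j :: L)) = _
  simp only [mul_add, Finset.sum_add_distrib]
  congr 1
  · rw [Matrix.trace]
    simp only [Finset.mul_sum]
    rw [Finset.sum_comm]
    refine Finset.sum_congr rfl fun k _ => ?_
    rw [Matrix.diag_apply, Matrix.of_apply]
  · simp only [Finset.mul_sum]
    rw [Finset.sum_comm]
    refine Finset.sum_congr rfl fun i _ => Finset.sum_congr rfl fun v _ => ?_
    ring

theorem GB_apply (x : Fin (X.dim + 1) → RB n) :
    GB E F x = ∑ j, x j * sr E (cor F 1 [hpow X j]) := rfl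

theorem rat_smul (f : RB n) : (1 / 24 : ℂ) • f = (1 / 24 : ℚ) • f := by
  have h := Rat.cast_smul_eq_qsmul ℂ (1 / 24 : ℚ) f
  rw [← h]
  congr 1
  push_cast
  rfl

/-- **[DB5']** the same for an arbitrary level -/
theorem cor_one_lev (hF : IsGW X F) (h1 : IsGenusOne F) (b : Fin (X.dim + 1)) (m : ℕ) :
    sr E (cor F 1 [(Sum.inl b, m)]) = GB E F (fun c => (SB E h1 m).1 c b) +
      if m = 0 then 0 else (1 / 24 : ℚ) • strB X n (CB E h1 fun c => (SB E h1 (m - 1)).1 c b) := by
  cases m with
  | zero =>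
    rw [if_pos rfl, add_zero, GB_apply, Finset.sum_eq_single b]
    · rw [SB_zero, if_pos rfl, one_mul]
      rfl
    · intro j _ hj
      rw [SB_zero, if_neg hj, zero_mul]
    · simp
  | succ m =>
    rw [if_neg (Nat.succ_ne_zero m), Nat.add_sub_cancel]
    have h2 : sr E (cor F 1 [(Sum.inl b, m + 1)]) =
        (∑ α, ∑ β, pairingInv X α β • (sr E (cor F 0 [(Sum.inl b, m), (α, 0)]) *
          sr E (cor F 1 [(β, 0)]))) +
        (1 / 24 : ℂ) • ∑ α, ∑ β, pairingInv X α β •
          sr E (cor F 0 [(Sum.inl b, m), (α, 0), (β, 0)]) := by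
      have e2 : ∀ α β, pairingInv X α β • (sr E (cor F 0 [(Sum.inl b, m), (α, 0)]) *
          sr E (cor F 1 [(β, 0)])) = sr E (fun d L => pairingInv X α β *
            mulS (cor F 0 [(Sum.inl b, m), (α, 0)]) (cor F 1 [(β, 0)]) d L) := by
        intro α β
        rw [← sr_mulS E _ _ (symF_cor E hF 0 _) (symF_cor E hF 1 _), sr_smul]
      have e3 : ∀ α β, pairingInv X α β • sr E (cor F 0 [(Sum.inl b, m), (α, 0), (β, 0)]) =
          sr E (fun d L => pairingInv X α β *
            cor F 0 [(Sum.inl b, m), (α, 0), (β, 0)] d L) := by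
        intro α β
        rw [sr_smul]
      simp only [e2, e3]
      simp only [← sr_sum]
      rw [← sr_smul, ← sr_add]
      refine sr_congr E fun d L => ?_
      exact h1.trr1 d b m (L.map E.ins) (isAmb_map E L)
    rw [h2, rat_smul]
    congr 1
    · have h3 : ∀ α, ∑ v : X.Prim, pairingInv X α (Sum.inr v) •
          (sr E (cor F 0 [(Sum.inl b, m), (α, 0)]) * sr E (cor F 1 [(Sum.inr v, 0)])) = 0 := by
        intro α
        refine Finset.sum_eq_zero fun v _ => ?_
        rw [sr_prim E h1 1 v 0 [] (by simp), mul_zero, smul_zero]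
      have h4 : ∀ α, ∑ β, pairingInv X α β •
          (sr E (cor F 0 [(Sum.inl b, m), (α, 0)]) * sr E (cor F 1 [(β, 0)])) =
          ∑ k : Fin (X.dim + 1), pairingInv X α (Sum.inl k) •
          (sr E (cor F 0 [(Sum.inl b, m), (α, 0)]) * sr E (cor F 1 [hpow X k])) := by
        intro α
        rw [Fintype.sum_sum_type, h3, add_zero]
        rfl
      simp only [h4]
      rw [Fintype.sum_sum_type]
      have h5 : ∑ v : X.Prim, ∑ k : Fin (X.dim + 1), pairingInv X (Sum.inr v) (Sum.inl k) •
          (sr E (cor F 0 [(Sum.inl b, m), (Sum.inr v, 0)]) * sr E (cor F 1 [hpow X k])) = 0 := by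
        refine Finset.sum_eq_zero fun v _ => Finset.sum_eq_zero fun k _ => ?_
        have : pairingInv X (Sum.inr v) (Sum.inl k) = 0 := rfl
        rw [this, zero_smul]
      rw [h5, add_zero, Finset.sum_comm, GB_apply]
      refine Finset.sum_congr rfl fun k _ => ?_
      rw [SB_succ, Finset.sum_mul]
      refine Finset.sum_congr rfl fun c _ => ?_
      rw [smul_mul_assoc]
      rfl
    · congr 1
      rw [strB_CB E hF]
      simp only [cor_three_pt E hF h1 b m, Finset.smul_sum, Finset.mul_sum]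
      have h6 : ∀ f : Ix X → Ix X → Fin (X.dim + 1) → RB n,
          ∑ α, ∑ β, ∑ i, f α β i = ∑ i, ∑ α, ∑ β, f α β i := by
        intro f
        rw [Finset.sum_congr rfl fun α _ => Finset.sum_comm (f := fun β i => f α β i)]
        exact Finset.sum_comm
      rw [h6]
      refine Finset.sum_congr rfl fun i _ => Finset.sum_congr rfl fun α _ =>
        Finset.sum_congr rfl fun β _ => ?_
      rw [mul_smul_comm]

/-- **[DB5]** topological recursion in genus one -/
theorem cor_one_big (hF : IsGW X F) (h1 : IsGenusOne F) (i : Fin n) :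
    sr E (cor F 1 [E.ins i]) = GB E F (wB E h1 i 0) +
      (1 / 24 : ℚ) • strB X n (CB E h1 (wB E h1 i 1)) := by
  have h0 : wB E h1 i 0 = fun c => (SB E h1 (E.e i).2).1 c (E.e i).1 := by
    funext c
    unfold wB
    rw [if_pos (Nat.zero_le _), Nat.sub_zero]
  have h2 := cor_one_lev E hF h1 (E.e i).1 (E.e i).2
  have h3 : E.ins i = (Sum.inl (E.e i).1, (E.e i).2) := rfl
  rw [h3, h2, h0]
  congr 1
  by_cases hm : (E.e i).2 = 0
  · rw [if_pos hm]
    have h4 : wB E h1 i 1 = 0 := by
      funext c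
      unfold wB
      rw [if_neg (by omega)]
      rfl
    rw [h4, map_zero, map_zero, smul_zero]
  · rw [if_neg hm]
    have h4 : wB E h1 i 1 = fun c => (SB E h1 ((E.e i).2 - 1)).1 c (E.e i).1 := by
      funext c
      unfold wB
      rw [if_pos (by omega)]
    rw [h4]

end Vale.Agent.P269.G1.H901
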